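import Vale.Agent.P352X.Api3a

/-!
# P352X, row UQ: the energy estimate
-/

set_option linter.all false

noncomputable section

open MeasureTheory Filter Topology Set

namespace Vale.Agent.P352X.Uq

open Vale.Agent.P352.GF Vale.Agent.P352.BW Vale.Agent.P352.H496 Vale.Agent.P352.H755

/-- `f'` is the derivative of `f` in the direction `v` -/
def LD {F : Type*} [NormedAddCommGroup F] [NormedSpace ℝ F] (f f' : V → F) (v : V) : Prop :=
  ∀ x, HasDerivAt (fun t : ℝ => f (x + t • v)) (f' x) 0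

variable {f f' g g' : V → ℝ} {v : V}

lemma LD.mul (h : LD f f' v) (h' : LD g g' v) :
    LD (fun x => f x * g x) (fun x => f' x * g x + f x * g' x) v := fun x => by
  simpa only [zero_smul, add_zero] using (h x).fun_mul (h' x)

lemma LD.add (h : LD f f' v) (h' : LD g g' v) :
    LD (fun x => f x + g x) (fun x => f' x + g' x) v := fun x => (h x).fun_add (h' x)

lemma LD.comp {E E' : ℝ → ℝ} (hE : ∀ s, HasDerivAt E (E' s) s) (h : LD f f' v) :
    LD (fun x => E (f x)) (fun x => E' (f x) * f' x) v := fun x => by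
  have := (hE (f (x + (0 : ℝ) • v))).comp (0 : ℝ) (h x)
  simp only [zero_smul, add_zero] at this
  exact this

lemma ld_mu (v : V) : LD mu (fun x => 2 * mdot x v) v := fun x => by
  have e : (fun t : ℝ => mu (x + t • v)) = fun t => mu x + t * (2 * mdot x v) + t ^ 2 * mu v := by
    funext t
    simp only [mu, md_add, md_add_l, md_smul, md_smul_l, md_comm v x]
    ring
  rw [e]
  exact hasDeriv_poly _ _ _

lemma ld_be (v : V) : LD be (fun _ => be v) v := fun x => by
  simp only [be_add, be_smul]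
  simpa using ((hasDerivAt_id' (0 : ℝ)).mul_const (be v)).const_add (be x)

lemma ld_cut (L : ℝ) (v : V) : LD (fun x => 1 - al x / L) (fun _ => -(al v / L)) v := fun x => by
  simp only [al_add, al_smul]
  simpa using ((((hasDerivAt_id' (0 : ℝ)).mul_const (al v)).const_add (al x)).div_const L).const_sub 1

/-- the integral of a derivative vanishes -/
lemma LD.int (h : LD f f' v) (hf : Continuous f) (hf' : Continuous f')
    (hc : HasCompactSupport f) : Integrable f' ∧ ∫ x, f' x = 0 := by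
  have h1 : HasCompactSupport f' := by
    refine hc.mono' fun x hx => ?_
    by_contra hn
    have h2 : ∀ᶠ t in 𝓝 (0 : ℝ), x + t • v ∈ (tsupport f)ᶜ := by
      have : Continuous fun t : ℝ => x + t • v := by fun_prop
      exact this.continuousAt.eventually_mem ((isClosed_tsupport f).isOpen_compl.mem_nhds
        (by simpa using hn))
    exact hx ((h x).unique ((hasDerivAt_const (0 : ℝ) (0 : ℝ)).congr_of_eventuallyEq
      (h2.mono fun t ht => image_eq_zero_of_notMem_tsupport ht)))
  have h2 := hf'.integrable_of_hasCompactSupport (μ := volume) h1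
  have h3 := integral_bilinear_hasLineDerivAt_right_eq_neg_left_of_integrable (μ := volume)
    (f := fun _ : V => (1 : ℝ)) (f' := fun _ => 0) (g := f) (g' := f') (v := v)
    (B := ContinuousLinearMap.mul ℝ ℝ) (by simp) (by simpa using h2)
    (by simpa using hf.integrable_of_hasCompactSupport hc)
    (fun x _ => hasDerivAt_const (0 : ℝ) (1 : ℝ)) fun x _ => h x
  exact ⟨h2, by simpa using h3⟩

/-! ### the weight -/

abbrev E : ℝ → ℝ := expNegInvGlue

def E1 (s : ℝ) : ℝ := s⁻¹ ^ 2 * E s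

lemma hE (s : ℝ) : HasDerivAt E (E1 s) s := by
  simpa [E1] using expNegInvGlue.hasDerivAt_polynomial_eval_inv_mul 1 s

@[fun_prop] lemma cE : Continuous E := (expNegInvGlue.contDiff (n := 0)).continuous

@[fun_prop] lemma cE1 : Continuous E1 := by
  have := expNegInvGlue.continuous_polynomial_eval_inv_mul (Polynomial.X ^ 2)
  simp only [Polynomial.eval_pow, Polynomial.eval_X] at this
  exact this

lemma E_nn (s : ℝ) : 0 ≤ E s := expNegInvGlue.nonneg s

lemma E1_nn (s : ℝ) : 0 ≤ E1 s := mul_nonneg (sq_nonneg _) (E_nn s)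

lemma E_le (s : ℝ) : E s ≤ 1 := by
  unfold E expNegInvGlue
  split_ifs with h
  · exact zero_le_one
  · exact Real.exp_le_one_iff.2 (neg_nonpos.2 (inv_nonneg.2 (not_le.1 h).le))

lemma E1_le (s : ℝ) : E1 s ≤ 2 := by
  unfold E1 E expNegInvGlue
  split_ifs with h
  · simp
  · have h1 : 0 ≤ s⁻¹ := inv_nonneg.2 (not_le.1 h).le
    have h2 := Real.quadratic_le_exp_of_nonneg h1
    rw [Real.exp_neg, ← div_eq_mul_inv, div_le_iff₀ (Real.exp_pos _)]
    nlinarith

lemma E_zero {s : ℝ} (h : s ≤ 0) : E s = 0 := expNegInvGlue.zero_of_nonpos h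

lemma E1_zero {s : ℝ} (h : s ≤ 0) : E1 s = 0 := by rw [E1, E_zero h, mul_zero]

lemma E_pos {s : ℝ} (h : 0 < s) : 0 < E s := expNegInvGlue.pos_of_pos h

lemma E1_pos {s : ℝ} (h : 0 < s) : 0 < E1 s := mul_pos (by positivity) (E_pos h)

/-- the weight -/
def W (L : ℝ) (z : V) : ℝ := E (mu z) * E (be z) * E (1 - al z / L)

/-- the derivatives of the weight -/
def W1 (L : ℝ) (v z : V) : ℝ :=
  (E1 (mu z) * (2 * mdot z v) * E (be z) + E (mu z) * (E1 (be z) * be v)) * E (1 - al z / L) +
    E (mu z) * E (be z) * (E1 (1 - al z / L) * -(al v / L))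

lemma ld_W (L : ℝ) (v : V) : LD (W L) (W1 L v) v :=
  (((ld_mu v).comp hE).mul ((ld_be v).comp hE)).mul ((ld_cut L v).comp hE)

@[fun_prop] lemma cW (L : ℝ) : Continuous (W L) := by
  unfold W
  fun_prop

@[fun_prop] lemma cW1 (L : ℝ) (v : V) : Continuous (W1 L v) := by
  unfold W1
  fun_prop

lemma W_zero (L : ℝ) {z : V} (h : z ∉ Fc) : W L z = 0 := by
  rw [mem_Fc, not_and_or, not_lt, not_lt] at h
  rcases h with h | h <;> simp [W, E_zero h]

lemma W_cs {L β : ℝ} (hL : 0 < L) {g : V → ℝ} (hg : ∀ z ∈ Fc, β < be z → g z = 0) :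
    HasCompactSupport fun z => W L z * g z := by
  refine HasCompactSupport.intro (isCompact_closedBall (0 : V) (2 * (L + β))) fun z hz => ?_
  by_contra hn
  obtain ⟨h1, h2⟩ := mul_ne_zero_iff.1 hn
  have h3 : z ∈ Fc := by_contra fun h => h1 (W_zero L h)
  have h4 : be z ≤ β := not_lt.1 fun h => h2 (hg z h3 h)
  have h5 : al z < L := by
    by_contra! h
    exact h1 (by rw [W, E_zero (s := 1 - al z / L) (sub_nonpos.2 ((one_le_div hL).2 h)), mul_zero])
  obtain ⟨a1, a2⟩ := (mem_Fc z).1 h3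
  have a3 := ((mem_Fc' z).1 h3).1
  rw [mu_eq] at a2
  have h6 := norm_pt_le (tx z) (al z) (be z)
  have h7 : ‖tx z‖ ≤ al z + be z :=
    abs_le_of_sq_le_sq' (by nlinarith [norm_sq_le_d2 (tx z)]) (by positivity) |>.2
  rw [pt_eta, abs_of_pos a1, abs_of_pos a3] at h6
  exact hz (mem_closedBall_zero_iff.2 (by linarith))

/-- **the energy estimate** -/
theorem energy {β : ℝ} {u ub u0 u1 v0 v1 w0 w1 : V → ℝ} (cu : Continuous u) (cub : Continuous ub)
    (cu0 : Continuous u0) (cu1 : Continuous u1) (cv0 : Continuous v0) (cv1 : Continuous v1)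
    (cw0 : Continuous w0) (cw1 : Continuous w1) (d1 : LD u ub vb) (d2 : LD u u0 (ex 0))
    (d3 : LD u u1 (ex 1)) (d4 : LD v0 u0 va) (d5 : LD v1 u1 va) (d6 : LD v0 w0 (ex 0))
    (d7 : LD v1 w1 (ex 1)) (hb : ∀ z ∈ Fc, 2 * ub z = w0 z + w1 z)
    (hz : ∀ z ∈ Fc, β < be z → u z = 0 ∧ v0 z = 0 ∧ v1 z = 0)
    (i0 : Integrable fun z => v0 z ^ 2) (i1 : Integrable fun z => v1 z ^ 2) :
    ∀ z ∈ Fc, u z = 0 := by
  let P : ℝ → V → ℝ := fun L z => E (1 - al z / L) * E (mu z) * E1 (be z) * u z ^ 2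
  have P0 : ∀ L z, 0 ≤ P L z := fun L z =>
    mul_nonneg (mul_nonneg (mul_nonneg (E_nn _) (E_nn _)) (E1_nn _)) (sq_nonneg _)
  have key : ∀ L, 0 < L → ∃ S : V → ℝ, Integrable S ∧ ∫ z, S z = 0 ∧
      ∀ z, 2 * P L z ≤ S z + 2 / L * (v0 z ^ 2 + v1 z ^ 2) := fun L hL => by
    obtain ⟨a1, a2⟩ := ((ld_W L vb).mul (d1.mul d1)).int (by fun_prop) (by fun_prop)
      (W_cs hL fun z h1 h2 => by rw [(hz z h1 h2).1, mul_zero])
    obtain ⟨b1, b2⟩ := ((ld_W L va).mul ((d4.mul d4).add (d5.mul d5))).int (by fun_prop)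
      (by fun_prop) (W_cs hL fun z h1 h2 => by rw [(hz z h1 h2).2.1, (hz z h1 h2).2.2]; simp)
    obtain ⟨c1, c2⟩ := ((ld_W L (ex 0)).mul (d2.mul d6)).int (by fun_prop) (by fun_prop)
      (W_cs hL fun z h1 h2 => by rw [(hz z h1 h2).1, zero_mul])
    obtain ⟨e1, e2⟩ := ((ld_W L (ex 1)).mul (d3.mul d7)).int (by fun_prop) (by fun_prop)
      (W_cs hL fun z h1 h2 => by rw [(hz z h1 h2).1, zero_mul])
    refine ⟨_, (((a1.const_mul 2).add b1).sub (c1.const_mul 2)).sub (e1.const_mul 2), ?_,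
      fun z => ?_⟩
    · rw [integral_sub' (((a1.const_mul 2).add b1).sub (c1.const_mul 2)) (e1.const_mul 2),
        integral_sub' ((a1.const_mul 2).add b1) (c1.const_mul 2),
        integral_add' (a1.const_mul 2) b1, integral_const_mul, integral_const_mul,
        integral_const_mul, a2, b2, c2, e2]
      simp
    · have h0 : W L z * (u z * (2 * ub z - w0 z - w1 z)) = 0 := by
        by_cases h : z ∈ Fc
        · rw [hb z h]
          ring
        · rw [W_zero L h, zero_mul]
      have h1 : 0 ≤ E1 (mu z) * E (be z) * (2 * al z * u z ^ 2 + be z * (v0 z ^ 2 + v1 z ^ 2) +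
          2 * u z * (tx z 0 * v0 z + tx z 1 * v1 z)) := by
        by_cases h : z ∈ Fc
        · obtain ⟨a1, a2⟩ := (mem_Fc z).1 h
          refine mul_nonneg (mul_nonneg (E1_nn _) (E_nn _)) (nonneg_of_mul_nonneg_right ?_ a1)
          rw [mu_eq, d2_eq] at a2
          nlinarith [sq_nonneg (be z * v0 z + u z * tx z 0), sq_nonneg (be z * v1 z + u z * tx z 1),
            mul_nonneg a2.le (sq_nonneg (u z))]
        · rw [mem_Fc, not_and_or, not_lt, not_lt] at h
          rcases h with h | h <;> simp [E_zero h, E1_zero h]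
      have h2 : E (mu z) * E (be z) * E1 (1 - al z / L) ≤ 2 := by
        have := mul_le_one₀ (E_le (mu z)) (E_nn (be z)) (E_le (be z))
        nlinarith [E1_le (1 - al z / L), E1_nn (1 - al z / L)]
      have h3 : 0 ≤ (2 - E (mu z) * E (be z) * E1 (1 - al z / L)) / L *
          (v0 z ^ 2 + v1 z ^ 2) := mul_nonneg (div_nonneg (sub_nonneg.2 h2) hL.le) (by positivity)
      have h4 := mul_nonneg (E_nn (1 - al z / L)) h1
      simp only [Pi.sub_apply, Pi.add_apply, W1, md_va', md_vb', md_ex', al_va, be_va, al_vb,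
        be_vb, al_ex, be_ex, P]
      simp only [W] at h0 ⊢
      have h5 : (2 - E (mu z) * E (be z) * E1 (1 - al z / L)) / L =
          2 / L - E (mu z) * E (be z) * E1 (1 - al z / L) * (1 / L) := by ring
      rw [h5] at h3
      simp only [zero_div]
      nlinarith
  intro z0 hz0
  obtain ⟨a1, a2⟩ := (mem_Fc z0).1 hz0
  have a3 := ((mem_Fc' z0).1 hz0).1
  set L0 := 2 * al z0 with hL0
  have b0 : 0 < L0 := by positivity
  have mono : ∀ L, L0 ≤ L → ∀ z, P L0 z ≤ P L z := fun L hL z => by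
    by_cases h : z ∈ Fc
    · have h1 := ((mem_Fc' z).1 h).1
      have h2 : E (1 - al z / L0) ≤ E (1 - al z / L) := expNegInvGlue.monotone (by gcongr)
      simp only [P, mul_assoc]
      exact mul_le_mul_of_nonneg_right h2
        (mul_nonneg (E_nn _) (mul_nonneg (E1_nn _) (sq_nonneg _)))
    · rw [mem_Fc, not_and_or, not_lt, not_lt] at h
      rcases h with h | h <;> simp [P, E_zero h, E1_zero h]
  have cP : Continuous (P L0) := by fun_prop
  have iP : Integrable (P L0) := by
    obtain ⟨S, s1, -, s3⟩ := key L0 b0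
    refine (s1.add ((i0.add i1).const_mul (2 / L0))).mono' cP.aestronglyMeasurable
      (Eventually.of_forall fun z => ?_)
    have := s3 z
    have := P0 L0 z
    rw [Real.norm_of_nonneg (P0 L0 z)]
    simp only [Pi.add_apply]
    linarith
  have b1 : ∀ L, L0 ≤ L → ∫ z, P L0 z ≤ 2 / L * ∫ z, (v0 z ^ 2 + v1 z ^ 2) := fun L hL => by
    obtain ⟨S, s1, s2, s3⟩ := key L (b0.trans_le hL)
    have h1 := integral_mono iP (s1.add ((i0.add i1).const_mul (2 / L))) fun z => by
      have := s3 z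
      have := P0 L z
      have := mono L hL z
      simp only [Pi.add_apply]
      linarith
    rwa [integral_add' s1 ((i0.add i1).const_mul (2 / L)), s2, zero_add, integral_const_mul] at h1
  have b2 : ∫ z, P L0 z ≤ 0 := by
    have h1 : Tendsto (fun L : ℝ => 2 / L * ∫ z, (v0 z ^ 2 + v1 z ^ 2)) atTop (𝓝 0) := by
      simpa using (tendsto_const_nhds.div_atTop tendsto_id).mul_const
        (∫ z, (v0 z ^ 2 + v1 z ^ 2))
    exact ge_of_tendsto h1 ((eventually_ge_atTop L0).mono b1)
  have b3 := (integral_eq_zero_iff_of_nonneg (P0 L0) iP).1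
    (le_antisymm b2 (integral_nonneg (P0 L0)))
  have b4 := congrFun ((cP.ae_eq_iff_eq volume continuous_zero).1 b3) z0
  have b5 : 0 < E (1 - al z0 / L0) := E_pos (by rw [hL0]; field_simp; norm_num)
  simp only [P, Pi.zero_apply, mul_eq_zero, b5.ne', (E_pos a2).ne', (E1_pos a1).ne', false_or,
    pow_eq_zero_iff two_ne_zero] at b4
  exact b4

end Vale.Agent.P352X.Uq

end
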